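import Vale.Agent.P142.Fin7

open Complex MeasureTheory Metric Set Filter Topology

namespace Vale.Agent.Results.P142.BrennanBounds

/-- the class `S`: functions holomorphic and injective on the unit disc, `f 0 = 0`, `f' 0 = 1` -/
def ClassS (f : ℂ → ℂ) : Prop :=
  DifferentiableOn ℂ f (ball 0 1) ∧ InjOn f (ball 0 1) ∧ f 0 = 0 ∧ deriv f 0 = 1

/-- the integral mean `M_t[f'](r) = (1/2π) ∫_{-π}^{π} |f'(r e^{iθ})|^t dθ` -/
noncomputable def intMean (t : ℝ) (f : ℂ → ℂ) (r : ℝ) : ℝ :=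
  (1 / (2 * Real.pi)) * ∫ θ in (-Real.pi)..Real.pi, ‖deriv f (r * exp (θ * I))‖ ^ t

/-- `β_f(t) = limsup_{r ↑ 1} log M_t[f'](r) / log (1/(1-r))` -/
noncomputable def betaF (t : ℝ) (f : ℂ → ℂ) : EReal :=
  limsup (fun r : ℝ => ((Real.log (intMean t f r) / Real.log (1 / (1 - r)) : ℝ) : EReal)) (𝓝[<] 1)

/-- the integral means spectrum `B_S(t) = sup_{f ∈ S} β_f(t)` -/
noncomputable def BS (t : ℝ) : EReal := ⨆ f : {f : ℂ → ℂ // ClassS f}, betaF t f.1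

/-- `B_S(-2) ≤ 1.1`, and Brennan's integral is finite for `2 ≤ s < 3.88` -/
theorem result :
    BS (-2) ≤ ((11 / 10 : ℝ) : EReal) ∧
    ∀ (W : Set ℂ) (φ : ℂ → ℂ), IsOpen W → DifferentiableOn ℂ φ W → BijOn φ W (ball 0 1) →
      ∀ s : ℝ, 2 ≤ s → s < 3.88 → ∫⁻ z in W, ENNReal.ofReal (‖deriv φ z‖ ^ s) < ⊤ :=
  ⟨Vale.Agent.P142.BS_le7, fun _ _ hW hφ hb _ h2 hs => Vale.Agent.P142.range7 hW hφ hb h2 hs⟩

end Vale.Agent.Results.P142.BrennanBounds
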