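import Vale.Agent.P142.Fin8
import Vale.Agent.P142.Lower

open Complex MeasureTheory Metric Set Filter Topology

namespace Vale.Agent.Results.P142.BrennanRange8

/-- the class `S`: functions holomorphic and injective on the unit disc, `f 0 = 0`, `f' 0 = 1` -/
def ClassS (f : ℂ → ℂ) : Prop :=
  DifferentiableOn ℂ f (ball 0 1) ∧ InjOn f (ball 0 1) ∧ f 0 = 0 ∧ deriv f 0 = 1

/-- the integral mean `M_t[f'](r) = (1/2π) ∫_{-π}^{π} |f'(r e^{iθ})|^t dθ` -/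
noncomputable def intMean (t : ℝ) (f : ℂ → ℂ) (r : ℝ) : ℝ :=
  (1 / (2 * Real.pi)) * ∫ θ in (-Real.pi)..Real.pi, ‖deriv f (r * exp (θ * I))‖ ^ t

/-- `β_f(t) = limsup_{r ↑ 1} log M_t[f'](r) / log (1/(1-r))` -/
noncomputable def betaF (t : ℝ) (f : ℂ → ℂ) : EReal :=
  limsup (fun r : ℝ => ((Real.log (intMean t f r) / Real.log (1 / (1 - r)) : ℝ) : EReal)) (𝓝[<] 1)

/-- the integral means spectrum `B_S(t) = sup_{f ∈ S} β_f(t)` -/
noncomputable def BS (t : ℝ) : EReal := ⨆ f : {f : ℂ → ℂ // ClassS f}, betaF t f.1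

/-- `B_S(-2) ≤ 1.083`, and Brennan's integral is finite for `4/3 < s < 3.9029` -/
theorem result :
    BS (-2) ≤ ((1083 / 1000 : ℝ) : EReal) ∧
    ∀ (W : Set ℂ) (φ : ℂ → ℂ), IsOpen W → DifferentiableOn ℂ φ W → BijOn φ W (ball 0 1) →
      ∀ s : ℝ, 4 / 3 < s → s < 3.9029 → ∫⁻ z in W, ENNReal.ofReal (‖deriv φ z‖ ^ s) < ⊤ := by
  refine ⟨Vale.Agent.P142.BS_le8, fun W φ hW hφ hb s h1 hs => ?_⟩
  rcases lt_or_ge s 2 with h2 | h2
  · exact Vale.Agent.P142.lower_range hW hφ hb h1 h2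
  · exact Vale.Agent.P142.range8 hW hφ hb h2 hs

end Vale.Agent.Results.P142.BrennanRange8
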